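import Mathlib

/-!
# P281, blocks KD-LOG and KD-INT: local coordinates with given coordinate functions
-/

open Set Filter Topology Metric

noncomputable section

namespace Vale.Agent.P281.H575.KD

/-- Linearly independent functionals are part of a basis. -/
theorem exists_basis {n : ℕ} {ι : Type*} (l : ι → ((Fin n → ℂ) →L[ℂ] ℂ))
    (hl : LinearIndependent ℂ l) :
    ∃ (σ : ι → Fin n) (b : Fin n → ((Fin n → ℂ) →L[ℂ] ℂ)), Function.Injective σ ∧
      (∀ i, b (σ i) = l i) ∧ ∀ v, (∀ j, b j v = 0) → v = 0 := by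
  classical
  have hfr : Module.finrank ℂ ((Fin n → ℂ) →L[ℂ] ℂ) = n := by
    rw [← LinearEquiv.finrank_eq (LinearMap.toContinuousLinearMap (𝕜 := ℂ) (E := Fin n → ℂ)
      (F' := ℂ))]
    have h1 := Subspace.dual_finrank_eq (K := ℂ) (V := Fin n → ℂ)
    rw [Module.finrank_fin_fun] at h1
    exact h1
  have hfin : FiniteDimensional ℂ ((Fin n → ℂ) →L[ℂ] ℂ) :=
    (LinearMap.toContinuousLinearMap (𝕜 := ℂ) (E := Fin n → ℂ)
      (F' := ℂ)).finiteDimensional
  have hs : LinearIndepOn ℂ id (range l) := hl.linearIndepOn_id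
  set B := Module.Basis.extend hs with hB
  have hft : Fintype (hs.extend (subset_univ _)) := FiniteDimensional.fintypeBasisIndex B
  have hcard : Fintype.card (hs.extend (subset_univ _)) = n := by
    rw [← Module.finrank_eq_card_basis B, hfr]
  let eqv : (hs.extend (subset_univ _)) ≃ Fin n := Fintype.equivFinOfCardEq hcard
  have hmem : ∀ i, l i ∈ hs.extend (subset_univ _) := fun i =>
    Module.Basis.subset_extend hs (mem_range_self i)
  refine ⟨fun i => eqv ⟨l i, hmem i⟩, fun j => B (eqv.symm j), ?_, fun i => ?_, fun v hv => ?_⟩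
  · intro i i' h
    have h1 := eqv.injective h
    exact hl.injective (congrArg Subtype.val h1)
  · show B (eqv.symm (eqv ⟨l i, hmem i⟩)) = l i
    rw [Equiv.symm_apply_apply, hB, Module.Basis.extend_apply_self]
  · -- evaluation at `v`
    let ev : ((Fin n → ℂ) →L[ℂ] ℂ) →ₗ[ℂ] ℂ :=
      { toFun := fun f => f v
        map_add' := fun _ _ => rfl
        map_smul' := fun _ _ => rfl }
    have h1 : ev = 0 := by
      apply B.ext
      intro k
      have := hv (eqv k)
      simp only [Equiv.symm_apply_apply] at this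
      exact this
    funext i
    have h2 : ev (ContinuousLinearMap.proj i) = 0 := by rw [h1]; rfl
    exact h2

/-- Local coordinates whose coordinates `σ i` are the given functions `g i`. -/
theorem coords {n : ℕ} {ι : Type*} {z₀ : Fin n → ℂ} {g : ι → (Fin n → ℂ) → ℂ}
    (hg : ∀ i, AnalyticAt ℂ (g i) z₀) (hl : LinearIndependent ℂ fun i => fderiv ℂ (g i) z₀) :
    ∃ (σ : ι → Fin n) (Φ : OpenPartialHomeomorph (Fin n → ℂ) (Fin n → ℂ)), Function.Injective σ ∧
      z₀ ∈ Φ.source ∧ (∀ z i, Φ z (σ i) = g i z) ∧ AnalyticAt ℂ Φ.symm (Φ z₀) := by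
  classical
  obtain ⟨σ, b, hσ, hb, hv⟩ := exists_basis _ hl
  set F : (Fin n → ℂ) → (Fin n → ℂ) := fun z j =>
    if h : ∃ i, σ i = j then g h.choose z else b j z with hF
  have hFσ : ∀ z i, F z (σ i) = g i z := by
    intro z i
    have h : ∃ i', σ i' = σ i := ⟨i, rfl⟩
    show (if h : ∃ i', σ i' = σ i then g h.choose z else b (σ i) z) = _
    rw [dif_pos h, hσ h.choose_spec]
  have hFj : ∀ j, AnalyticAt ℂ (fun z => F z j) z₀ ∧ fderiv ℂ (fun z => F z j) z₀ = b j := by
    intro j
    by_cases h : ∃ i, σ i = j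
    · obtain ⟨i, rfl⟩ := h
      have e1 : (fun z => F z (σ i)) = g i := funext fun z => hFσ z i
      rw [e1]
      exact ⟨hg i, (hb i).symm⟩
    · have e1 : (fun z => F z j) = fun z => b j z := by
        funext z
        show (if h : ∃ i, σ i = j then g h.choose z else b j z) = _
        rw [dif_neg h]
      rw [e1]
      exact ⟨(b j).analyticAt _, (b j).fderiv⟩
  have hFa : AnalyticAt ℂ F z₀ := by
    rw [analyticAt_pi_iff]
    exact fun j => (hFj j).1
  have hinj : Function.Injective (ContinuousLinearMap.pi b : (Fin n → ℂ) →L[ℂ] (Fin n → ℂ)) := by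
    rw [injective_iff_map_eq_zero]
    intro v h
    exact hv v fun j => congrFun h j
  let L0 : (Fin n → ℂ) ≃ₗ[ℂ] (Fin n → ℂ) :=
    LinearEquiv.ofInjectiveEndo
      ((ContinuousLinearMap.pi b : (Fin n → ℂ) →L[ℂ] (Fin n → ℂ)) : (Fin n → ℂ) →ₗ[ℂ] (Fin n → ℂ))
      hinj
  let L : (Fin n → ℂ) ≃L[ℂ] (Fin n → ℂ) := L0.toContinuousLinearEquiv
  have hL : (L : (Fin n → ℂ) →L[ℂ] (Fin n → ℂ)) = ContinuousLinearMap.pi b := by
    ext1 v
    rfl
  have hfd : fderiv ℂ F z₀ = (L : (Fin n → ℂ) →L[ℂ] (Fin n → ℂ)) := by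
    rw [hL, fderiv_pi fun j => (hFj j).1.differentiableAt]
    congr 1
    funext j
    exact (hFj j).2
  have hst : HasStrictFDerivAt F (L : (Fin n → ℂ) →L[ℂ] (Fin n → ℂ)) z₀ := by
    rw [← hfd]
    exact hFa.hasStrictFDerivAt
  refine ⟨σ, hst.toOpenPartialHomeomorph F, hσ, hst.mem_toOpenPartialHomeomorph_source,
    fun z i => hFσ z i, ?_⟩
  exact (hst.toOpenPartialHomeomorph F).analyticAt_symm' hst.mem_toOpenPartialHomeomorph_source
    hFa hfd

end Vale.Agent.P281.H575.KD
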