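import Vale.Agent.P281.H575.KD.Jen
import Vale.Agent.P281.H575.KD.Coord

/-!
# P281, blocks KD-LOG and KD-INT: the local estimate
-/

open MeasureTheory Metric Set Real Filter Topology
open scoped ENNReal

noncomputable section

namespace Vale.Agent.P281.H575.KD

/-- Change of variables near a point, with a bounded Jacobian. -/
theorem local_change {n : ℕ} {z₀ : Fin n → ℂ} {Φ : OpenPartialHomeomorph (Fin n → ℂ) (Fin n → ℂ)}
    (hz : z₀ ∈ Φ.source) (ha : AnalyticAt ℂ Φ.symm (Φ z₀)) :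
    ∃ R : ℝ, 0 < R ∧ ∃ C : ℝ≥0∞, C ≠ ∞ ∧ ball (Φ z₀) R ⊆ Φ.target ∧
      DifferentiableOn ℂ Φ.symm (ball (Φ z₀) R) ∧
      ∀ B : Set (Fin n → ℂ), MeasurableSet B → B ⊆ ball (Φ z₀) R → ∀ G : (Fin n → ℂ) → ℝ≥0∞,
        ∫⁻ z in Φ.symm '' B, G z ≤ C * ∫⁻ w in B, G (Φ.symm w) := by
  set w₀ := Φ z₀ with hw₀
  set f' : (Fin n → ℂ) → (Fin n → ℂ) →L[ℝ] (Fin n → ℂ) := fun w =>
    (fderiv ℂ Φ.symm w).restrictScalars ℝ with hf'
  have h1 : ∀ᶠ w in 𝓝 w₀, AnalyticAt ℂ Φ.symm w := ha.eventually_analyticAt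
  have h2 : ∀ᶠ w in 𝓝 w₀, w ∈ Φ.target := Φ.open_target.mem_nhds (Φ.map_source hz)
  have h3 : ContinuousAt (fun w => |(f' w).det|) w₀ := by
    have h4 : ContinuousAt (fderiv ℂ Φ.symm) w₀ := ha.fderiv.continuousAt
    have h5 : Continuous fun L : (Fin n → ℂ) →L[ℂ] (Fin n → ℂ) => L.restrictScalars ℝ :=
      ContinuousLinearMap.continuous_restrictScalars ℝ
    have h6 : ContinuousAt (fun w => (f' w).det) w₀ :=
      (ContinuousLinearMap.continuous_det.comp h5).continuousAt.comp h4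
    exact h6.abs
  have h4 : ∀ᶠ w in 𝓝 w₀, |(f' w).det| < |(f' w₀).det| + 1 :=
    h3.eventually (gt_mem_nhds (lt_add_one _))
  obtain ⟨R, hR, h5⟩ := Metric.eventually_nhds_iff_ball.1 (h1.and (h2.and h4))
  refine ⟨R, hR, ENNReal.ofReal (|(f' w₀).det| + 1), ENNReal.ofReal_ne_top,
    fun w hw => (h5 w hw).2.1, fun w hw => (h5 w hw).1.differentiableAt.differentiableWithinAt,
    fun B hB hBR G => ?_⟩
  rw [lintegral_image_eq_lintegral_abs_det_fderiv_mul volume hB (f' := f')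
    (fun w hw => ((h5 w (hBR hw)).1.differentiableAt.hasFDerivAt.restrictScalars
      ℝ).hasFDerivWithinAt) ?_ G]
  · rw [← lintegral_const_mul' _ _ ENNReal.ofReal_ne_top]
    refine setLIntegral_mono' hB fun w hw => ?_
    gcongr
    exact (h5 w (hBR hw)).2.2.le
  · exact Φ.symm.injOn.mono fun w hw => (h5 w (hBR hw)).2.1

/-- **The local estimate.** -/
theorem core_local {n : ℕ} {z₀ : Fin n → ℂ} {Φ : OpenPartialHomeomorph (Fin n → ℂ) (Fin n → ℂ)}
    (hz : z₀ ∈ Φ.source) (hΦ : AnalyticAt ℂ Φ.symm (Φ z₀)) {κ : Type*} [Finite κ]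
    {a : κ → (Fin n → ℂ) → ℂ} (ha : ∀ b, AnalyticAt ℂ (a b) z₀) (S : Finset (Fin n))
    (hfr : ∃ᶠ z in 𝓝 z₀, (∀ j ∈ S, Φ z j = 0) ∧ ∃ b, a b z ≠ 0) {I : Type*}
    (w : I → Fin n → ℝ → ℝ≥0∞) (hw : ∀ s j, Measurable (w s j)) (Kw : ℝ≥0∞) (hKw : Kw ≠ ∞)
    (hwK : ∀ s j, ∀ R : ℝ, 0 < R → R ≤ 1 → ∫⁻ y in ball (0 : ℂ) R, w s j ‖y‖ ≤ Kw) :
    ∃ V ∈ 𝓝 z₀, ∃ (b : κ) (A : ℝ) (K : ℝ≥0∞), K ≠ ∞ ∧ 1 ≤ A ∧
      (∀ z ∈ V, 1 ≤ Real.log A - Real.log (‖a b z‖ ^ 2 + 1)) ∧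
      ∀ (s : I) (δ : ℝ), 0 < δ → δ ≤ 1 →
        ∫⁻ z in V, ENNReal.ofReal (Real.log A - Real.log (‖a b z‖ ^ 2 + δ)) *
          ∏ j ∈ S, w s j ‖Φ z j‖ ≤ K := by
  classical
  obtain ⟨R0, hR0, C, hC, hsub, hdiff, hch⟩ := local_change hz hΦ
  set w₀ := Φ z₀ with hw₀
  have hsymm : Φ.symm w₀ = z₀ := Φ.left_inv hz
  have hcont : ContinuousAt Φ.symm w₀ := hΦ.continuousAt
  -- a small polydisc
  have h1 : ∀ᶠ v in 𝓝 w₀, ∀ b, AnalyticAt ℂ (a b) (Φ.symm v) ∧
      ‖a b (Φ.symm v)‖ < ‖a b z₀‖ + 1 := by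
    rw [eventually_all]
    intro b
    have h2 : ∀ᶠ z in 𝓝 (Φ.symm w₀), AnalyticAt ℂ (a b) z := by
      rw [hsymm]; exact (ha b).eventually_analyticAt
    have h3 : ∀ᶠ z in 𝓝 (Φ.symm w₀), ‖a b z‖ < ‖a b z₀‖ + 1 := by
      rw [hsymm]
      exact (ha b).continuousAt.norm.eventually (gt_mem_nhds (lt_add_one _))
    exact (hcont.eventually h2).and (hcont.eventually h3)
  obtain ⟨R1, hR1, h2⟩ := Metric.eventually_nhds_iff_ball.1 h1
  set R2 := min (min R0 R1) 1 with hR2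
  have hR2p : 0 < R2 := lt_min (lt_min hR0 hR1) one_pos
  have hR20 : R2 ≤ R0 := (min_le_left _ _).trans (min_le_left _ _)
  have hR21 : R2 ≤ R1 := (min_le_left _ _).trans (min_le_right _ _)
  have hR2one : R2 ≤ 1 := min_le_right _ _
  -- the centre
  have h3a : ∀ᶠ z in 𝓝 z₀, z ∈ Φ.source := Φ.open_source.mem_nhds hz
  have h3 : ∀ᶠ z in 𝓝 z₀, z ∈ Φ.source ∧ Φ z ∈ ball w₀ (R2 / 4) :=
    h3a.and ((Φ.continuousAt hz).eventually (ball_mem_nhds _ (by positivity)))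
  obtain ⟨zp, ⟨hzS, b, hzb⟩, hzs, hzball⟩ := (hfr.and_eventually h3).exists
  set p := Φ zp with hp
  have hpz : Φ.symm p = zp := Φ.left_inv hzs
  set R := R2 / 2 with hR
  have hRp : 0 < R := by positivity
  have hpsub : ball p R ⊆ ball w₀ R2 := by
    intro v hv
    rw [mem_ball] at hv hzball ⊢
    calc dist v w₀ ≤ dist v p + dist p w₀ := dist_triangle _ _ _
      _ < R2 / 2 + R2 / 4 := add_lt_add hv hzball
      _ ≤ R2 := by linarith
  have hcov : ball w₀ (R2 / 4) ⊆ ball p R := by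
    intro v hv
    rw [mem_ball] at hv hzball ⊢
    calc dist v p ≤ dist v w₀ + dist w₀ p := dist_triangle _ _ _
      _ < R2 / 4 + R2 / 4 := add_lt_add hv (by rwa [dist_comm])
      _ = R2 / 2 := by ring
  set A : ℝ := Real.exp 1 * ((‖a b z₀‖ + 1) ^ 2 + 1) with hA
  have hApos : 0 < A := by positivity
  have hA1 : 1 ≤ A := by
    have h5 : (1 : ℝ) ≤ Real.exp 1 := by
      have := Real.add_one_le_exp (1 : ℝ)
      linarith
    have h6 : (1 : ℝ) ≤ (‖a b z₀‖ + 1) ^ 2 + 1 := by nlinarith [sq_nonneg (‖a b z₀‖ + 1)]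
    nlinarith
  have hAe : ∀ v ∈ ball w₀ R2, Real.exp 1 * (‖a b (Φ.symm v)‖ ^ 2 + 1) ≤ A := by
    intro v hv
    have h5 := ((h2 v (ball_subset_ball hR21 hv)) b).2.le
    have h6 : ‖a b (Φ.symm v)‖ ^ 2 ≤ (‖a b z₀‖ + 1) ^ 2 :=
      pow_le_pow_left₀ (norm_nonneg _) h5 2
    rw [hA]
    gcongr
  set f : (Fin n → ℂ) → ℂ := fun v => a b (Φ.symm v) with hf
  have hfd : DifferentiableOn ℂ f (ball p R) := by
    intro v hv
    have hv2 := hpsub hv
    have h5 := ((h2 v (ball_subset_ball hR21 hv2)) b).1.differentiableAt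
    have h6 := (hdiff v (ball_subset_ball hR20 hv2)).differentiableAt
      (isOpen_ball.mem_nhds (ball_subset_ball hR20 hv2))
    exact (h5.comp v h6).differentiableWithinAt
  set V : Set (Fin n → ℂ) := Φ.source ∩ Φ ⁻¹' ball w₀ (R2 / 4) with hV
  have hVn : V ∈ 𝓝 z₀ := h3
  have hVsub : V ⊆ Φ.symm '' ball p R := by
    rintro z ⟨hz1, hz2⟩
    exact ⟨Φ z, hcov hz2, Φ.left_inv hz1⟩
  set ws : I → Fin n → ℝ → ℝ≥0∞ := fun s j => if j ∈ S then w s j else fun _ => 1 with hws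
  have hwsm : ∀ s j, Measurable (ws s j) := by
    intro s j
    show Measurable (if j ∈ S then w s j else fun _ => 1)
    split_ifs
    · exact hw s j
    · exact measurable_const
  set M : ℝ≥0∞ := max Kw (volume (ball (0 : ℂ) 1)) with hM
  have hMtop : M ≠ ∞ := by
    rw [hM]
    exact (max_lt hKw.lt_top measure_ball_lt_top).ne
  have hint : ∀ s j, ∫⁻ y in ball (p j) R, ws s j ‖y - p j‖ ≤ M := by
    intro s j
    show ∫⁻ y in ball (p j) R, (if j ∈ S then w s j else fun _ => 1) ‖y - p j‖ ≤ M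
    by_cases hj : j ∈ S
    · rw [if_pos hj]
      have hpj : p j = 0 := hzS j hj
      rw [hpj]
      simp only [sub_zero]
      exact (hwK s j R hRp (by rw [hR]; linarith)).trans (le_max_left _ _)
    · rw [if_neg hj]
      rw [lintegral_one, Measure.restrict_apply_univ, Complex.volume_ball]
      refine le_trans ?_ (le_max_right _ _)
      rw [Complex.volume_ball]
      gcongr
      rw [hR]
      linarith
  refine ⟨V, hVn, b, A, C * (ENNReal.ofReal (Real.log A - Real.log (‖f p‖ ^ 2)) * M ^ n), ?_,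
    hA1, ?_, ?_⟩
  · exact ENNReal.mul_ne_top hC (ENNReal.mul_ne_top ENNReal.ofReal_ne_top (ENNReal.pow_ne_top hMtop))
  · rintro z ⟨hz1, hz2⟩
    have h5 := hAe (Φ z) (ball_subset_ball (by linarith) hz2)
    rw [Φ.left_inv hz1] at h5
    have h6 := Real.log_le_log (by positivity) h5
    rw [Real.log_mul (Real.exp_pos 1).ne' (by positivity), Real.log_exp] at h6
    linarith
  · intro s δ hδ hδ1
    have hbound : ∀ v ∈ ball p R, ‖f v‖ ^ 2 + δ ≤ A := by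
      intro v hv
      have h5 := hAe v (hpsub hv)
      have h6 : (1 : ℝ) ≤ Real.exp 1 := by
        have := Real.add_one_le_exp (1 : ℝ)
        linarith
      have h7 : 0 ≤ ‖f v‖ ^ 2 := by positivity
      have h8 : ‖f v‖ ^ 2 + 1 ≤ Real.exp 1 * (‖f v‖ ^ 2 + 1) := by nlinarith
      have h9 : ‖f v‖ ^ 2 + 1 ≤ A := h8.trans h5
      linarith
    have h5 := polydisc_le (A := A) hδ hRp hfd hbound (ws s) (hwsm s)
    have hfp : ‖f p‖ ^ 2 ≠ 0 := by
      have : f p ≠ 0 := by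
        show a b (Φ.symm p) ≠ 0
        rw [hpz]; exact hzb
      exact pow_ne_zero _ (norm_ne_zero_iff.2 this)
    have hfp' : 0 < ‖f p‖ ^ 2 := lt_of_le_of_ne (by positivity) (Ne.symm hfp)
    have h6 : ENNReal.ofReal (Real.log A - Real.log (‖f p‖ ^ 2 + δ)) *
        ∏ j, ∫⁻ y in ball (p j) R, ws s j ‖y - p j‖ ≤
        ENNReal.ofReal (Real.log A - Real.log (‖f p‖ ^ 2)) * M ^ n := by
      refine mul_le_mul' (ENNReal.ofReal_le_ofReal ?_) ?_
      · have := Real.log_le_log hfp' (le_add_of_nonneg_right hδ.le : ‖f p‖ ^ 2 ≤ ‖f p‖ ^ 2 + δ)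
        linarith
      · calc ∏ j, ∫⁻ y in ball (p j) R, ws s j ‖y - p j‖ ≤ ∏ _j : Fin n, M :=
              Finset.prod_le_prod' fun j _ => hint s j
          _ = M ^ n := by rw [Finset.prod_const, Finset.card_univ, Fintype.card_fin]
    set G : (Fin n → ℂ) → ℝ≥0∞ := fun z =>
      ENNReal.ofReal (Real.log A - Real.log (‖a b z‖ ^ 2 + δ)) * ∏ j ∈ S, w s j ‖Φ z j‖ with hG
    have h7 : ∀ v ∈ ball p R, G (Φ.symm v) =
        ENNReal.ofReal (Real.log A - Real.log (‖f v‖ ^ 2 + δ)) * ∏ j, ws s j ‖v j - p j‖ := by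
      intro v hv
      have hvt : v ∈ Φ.target := hsub (ball_subset_ball hR20 (hpsub hv))
      show ENNReal.ofReal (Real.log A - Real.log (‖a b (Φ.symm v)‖ ^ 2 + δ)) *
        ∏ j ∈ S, w s j ‖Φ (Φ.symm v) j‖ = _
      rw [Φ.right_inv hvt]
      congr 1
      rw [← Finset.prod_subset (Finset.subset_univ S)]
      · refine Finset.prod_congr rfl fun j hj => ?_
        have hpj : p j = 0 := hzS j hj
        rw [hpj, sub_zero, hws]
        simp only [if_pos hj]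
      · intro j _ hj
        rw [hws]
        simp only [if_neg hj]
    calc ∫⁻ z in V, G z ≤ ∫⁻ z in Φ.symm '' ball p R, G z := lintegral_mono_set hVsub
      _ ≤ C * ∫⁻ v in ball p R, G (Φ.symm v) :=
          hch _ measurableSet_ball (hpsub.trans (ball_subset_ball hR20)) G
      _ = C * ∫⁻ v in ball p R, ENNReal.ofReal (Real.log A - Real.log (‖f v‖ ^ 2 + δ)) *
          ∏ j, ws s j ‖v j - p j‖ := by
          rw [setLIntegral_congr_fun measurableSet_ball h7]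
      _ ≤ _ := by
          gcongr
          exact h5.trans h6

end Vale.Agent.P281.H575.KD
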