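import Vale.Agent.P281.H713.KD.Iface
import Vale.Agent.P272.K.AMP.H470.Glob
import Vale.Agent.P281.H575.KD.Core

/-!
# P281, blocks KD-LOG and KD-INT: from local to global estimates
-/

open scoped Manifold ContDiff Topology ComplexOrder ENNReal
open Set Filter MeasureTheory Metric Vale.Agent.P281.J Vale.Agent.P272.K Vale.Agent.P272.K.AMP
open Vale.Agent.P299
open Vale.Agent.P299.H882 (J)

noncomputable section

namespace Vale.Agent.P281.H575.KD

variable {n : ℕ} {X : Type*} [TopologicalSpace X] [ChartedSpace (Cm n) X]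
  [IsManifold 𝓘(ℂ, Cm n) ω X] [T2Space X] [CompactSpace X]

/-- A uniform bound of `∫_X` from local bounds. -/
theorem glob {χ : D.FormM n X} (hχ : IsHermitian χ) {I : Type*} (F : I → X → ℝ)
    (hc : ∀ s, Continuous (F s)) (h0 : ∀ s x, 0 ≤ F s x)
    (hloc : ∀ x : X, ∃ e : Chart n X, At e x ∧ ∃ V ∈ 𝓝 (e x), ∃ K : ℝ≥0∞, K ≠ ⊤ ∧
      ∀ s, ∫⁻ z in V, ENNReal.ofReal (F s (e.symm z)) ≤ K) :
    ∃ K : ℝ, ∀ s, J χ (F s) ≤ K := by
  choose e he V hV K hK hle using hloc
  have hdens0 : INT.IsDensity (fun (e : Chart n X) z => (χ e z).det.re) :=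
    INT.isDensity_det hχ.isForm hχ.smooth
  -- a smaller neighbourhood with bounded volume form
  have hex : ∀ x, ∃ T : ℝ, 0 ≤ T ∧ ∃ V' : Set (Cm n), IsOpen V' ∧ e x x ∈ V' ∧
      V' ⊆ V x ∧ V' ⊆ (e x).target ∧ ∀ z ∈ V', (χ (e x) z).det.re ≤ T := by
    intro x
    have h1 : ContinuousAt (fun z => (χ (e x) z).det.re) (e x x) := hdens0.cont _ _ (he x)
    have h2 : ∀ᶠ z in 𝓝 (e x x), (χ (e x) z).det.re < |(χ (e x) (e x x)).det.re| + 1 :=
      h1.eventually (gt_mem_nhds (by linarith [le_abs_self (χ (e x) (e x x)).det.re]))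
    have h3 : ∀ᶠ z in 𝓝 (e x x), z ∈ V x := hV x
    have h4 : ∀ᶠ z in 𝓝 (e x x), z ∈ (e x).target :=
      (e x).open_target.mem_nhds ((e x).map_source (he x).2)
    obtain ⟨V', hV', hVo, hxV⟩ := _root_.mem_nhds_iff.1 (h2.and (h3.and h4))
    exact ⟨|(χ (e x) (e x x)).det.re| + 1, by positivity, V', hVo, hxV,
      fun z hz => (hV' hz).2.1, fun z hz => (hV' hz).2.2, fun z hz => (hV' hz).1.le⟩
  choose T hT V' hVo hxV hVV hVt hTle using hex
  set U : X → Set X := fun x => (e x).source ∩ (e x) ⁻¹' (V' x) with hU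
  have hUo : ∀ x, IsOpen (U x) := fun x => (e x).isOpen_inter_preimage (hVo x)
  have hxU : ∀ x, x ∈ U x := fun x => ⟨(he x).2, hxV x⟩
  obtain ⟨N, c, ρ, hρc, hρ0, hρs, hρ1, -⟩ := exists_part_sub n U hUo hxU
  refine ⟨∑ i, (K (c i) * ENNReal.ofReal (T (c i))).toReal, fun s => ?_⟩
  have hdens : INT.IsDensity (fun (e : Chart n X) z => F s (e.symm z) * (χ e z).det.re) :=
    hdens0.smul (hc s)
  unfold H882.J
  rw [← hdens.isIntegral N (fun i => e (c i)) ρ (fun i => (he _).1) hρc
    (fun i => (hρs i).trans inter_subset_left) hρ1]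
  refine Finset.sum_le_sum fun i _ => ?_
  have hρle : ∀ x, ρ i x ≤ 1 := by
    intro x
    rw [← hρ1 x]
    exact Finset.single_le_sum (f := fun i => ρ i x) (fun i _ => hρ0 i x) (Finset.mem_univ i)
  have hdet0 : ∀ z ∈ (e (c i)).target, 0 ≤ (χ (e (c i)) z).det.re := by
    intro z hz
    have h1 := (hχ.posDef_target (he (c i)).1 hz).det_pos
    exact (Complex.lt_def.1 h1).1.le
  have hnn : ∀ z ∈ (e (c i)).target, 0 ≤ ρ i ((e (c i)).symm z) *
      (F s ((e (c i)).symm z) * (χ (e (c i)) z).det.re) := fun z hz =>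
    mul_nonneg (hρ0 i _) (mul_nonneg (h0 s _) (hdet0 z hz))
  have hint := INT.integrableOn_dens hdens (he (c i)).1 (hρc i)
    ((hρs i).trans inter_subset_left)
  rw [integral_eq_lintegral_of_nonneg_ae
    ((ae_restrict_iff' (e (c i)).open_target.measurableSet).2
      (Eventually.of_forall fun z hz => hnn z hz)) hint.aestronglyMeasurable]
  refine ENNReal.toReal_mono (ENNReal.mul_ne_top (hK _) ENNReal.ofReal_ne_top) ?_
  calc ∫⁻ z in (e (c i)).target, ENNReal.ofReal (ρ i ((e (c i)).symm z) *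
        (F s ((e (c i)).symm z) * (χ (e (c i)) z).det.re))
      ≤ ∫⁻ z in (e (c i)).target, (V' (c i)).indicator (fun z =>
          ENNReal.ofReal (F s ((e (c i)).symm z)) * ENNReal.ofReal (T (c i))) z := by
        refine setLIntegral_mono' (e (c i)).open_target.measurableSet fun z hz => ?_
        by_cases hz' : z ∈ V' (c i)
        · rw [indicator_of_mem hz', ← ENNReal.ofReal_mul (h0 s _)]
          refine ENNReal.ofReal_le_ofReal ?_
          have h1 := hTle (c i) z hz'
          have h2 : F s ((e (c i)).symm z) * (χ (e (c i)) z).det.re ≤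
              F s ((e (c i)).symm z) * T (c i) := mul_le_mul_of_nonneg_left h1 (h0 s _)
          have h3 : 0 ≤ F s ((e (c i)).symm z) * (χ (e (c i)) z).det.re :=
            mul_nonneg (h0 s _) (hdet0 z hz)
          calc ρ i ((e (c i)).symm z) * (F s ((e (c i)).symm z) * (χ (e (c i)) z).det.re)
              ≤ 1 * (F s ((e (c i)).symm z) * (χ (e (c i)) z).det.re) :=
                mul_le_mul_of_nonneg_right (hρle _) h3
            _ ≤ _ := by rw [one_mul]; exact h2
        · rw [indicator_of_notMem hz']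
          have h1 : (e (c i)).symm z ∉ U (c i) := by
            intro h
            apply hz'
            have := h.2
            rwa [mem_preimage, (e (c i)).right_inv hz] at this
          rw [image_eq_zero_of_notMem_tsupport (fun h => h1 (hρs i h)), zero_mul,
            ENNReal.ofReal_zero]
    _ ≤ ∫⁻ z, (V' (c i)).indicator (fun z =>
          ENNReal.ofReal (F s ((e (c i)).symm z)) * ENNReal.ofReal (T (c i))) z :=
        setLIntegral_le_lintegral _ _
    _ = ∫⁻ z in V' (c i), ENNReal.ofReal (F s ((e (c i)).symm z)) *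
          ENNReal.ofReal (T (c i)) := lintegral_indicator (hVo _).measurableSet _
    _ = (∫⁻ z in V' (c i), ENNReal.ofReal (F s ((e (c i)).symm z))) *
          ENNReal.ofReal (T (c i)) := lintegral_mul_const' _ _ ENNReal.ofReal_ne_top
    _ ≤ K (c i) * ENNReal.ofReal (T (c i)) := by
        gcongr
        exact (lintegral_mono_set (hVV _)).trans (hle _ s)

end Vale.Agent.P281.H575.KD
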