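import Mathlib

/-!
# P281, blocks KD-LOG and KD-INT: the weights
-/

open MeasureTheory Metric Set Real Filter Topology
open scoped ENNReal

noncomputable section

namespace Vale.Agent.P281.H575.KD

/-- `∫ ε/(|y|² + ε)²` is independent of `ε`. -/
theorem wt_tube : ∃ C : ℝ≥0∞, C ≠ ∞ ∧ ∀ ε : ℝ, 0 < ε →
    ∫⁻ y : ℂ, ENNReal.ofReal (ε / (‖y‖ ^ 2 + ε) ^ 2) ≤ C := by
  have hint : Integrable (fun y : ℂ => ((1 + ‖y‖ ^ 2) ^ 2)⁻¹) := by
    have h1 := integrable_rpow_neg_one_add_norm_sq (E := ℂ) (μ := volume) (r := 4)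
      (by rw [Complex.finrank_real_complex]; norm_num)
    refine h1.congr (Eventually.of_forall fun y => ?_)
    show (1 + ‖y‖ ^ 2) ^ (-(4 : ℝ) / 2) = ((1 + ‖y‖ ^ 2) ^ 2)⁻¹
    rw [show (-(4 : ℝ) / 2) = -((2 : ℕ) : ℝ) by norm_num, Real.rpow_neg (by positivity),
      Real.rpow_natCast]
  refine ⟨ENNReal.ofReal (∫ y : ℂ, ((1 + ‖y‖ ^ 2) ^ 2)⁻¹), ENNReal.ofReal_ne_top,
    fun ε hε => ?_⟩
  have hs : 0 < √ε := Real.sqrt_pos.2 hε
  have hs2 : (√ε) ^ 2 = ε := Real.sq_sqrt hε.le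
  have e1 : ∀ y : ℂ, ε / (‖y‖ ^ 2 + ε) ^ 2 = ε⁻¹ * ((1 + ‖(√ε)⁻¹ • y‖ ^ 2) ^ 2)⁻¹ := by
    intro y
    rw [norm_smul, norm_inv, Real.norm_of_nonneg hs.le, mul_pow, inv_pow, hs2]
    field_simp
    ring
  have hint2 : Integrable (fun y : ℂ => ε / (‖y‖ ^ 2 + ε) ^ 2) := by
    have h2 := (hint.comp_smul (inv_ne_zero hs.ne')).const_mul ε⁻¹
    exact h2.congr (Eventually.of_forall fun y => (e1 y).symm)
  rw [← ofReal_integral_eq_lintegral_ofReal hint2 (Eventually.of_forall fun y => by positivity)]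
  apply le_of_eq
  congr 1
  simp only [e1]
  rw [integral_const_mul, Measure.integral_comp_smul volume
    (fun y : ℂ => ((1 + ‖y‖ ^ 2) ^ 2)⁻¹) (√ε)⁻¹, Complex.finrank_real_complex, inv_pow, hs2,
    inv_inv, abs_of_pos hε, smul_eq_mul, ← mul_assoc, inv_mul_cancel₀ hε.ne', one_mul]

end Vale.Agent.P281.H575.KD
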