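import Vale.Agent.P281.H455.KD.BDMain
import Vale.Agent.P281.H575.KD.Glob
import Vale.Agent.P281.H575.KD.Wt

/-!
# P281, theorem KD: block LOG (`LogPart`)
-/

open scoped Manifold ContDiff Topology ComplexOrder ENNReal
open Set Filter MeasureTheory Metric Vale.Agent.P281.J Vale.Agent.P272.K Vale.Agent.P272.K.AMP
open Vale.Agent.P299
open Vale.Agent.P299.H882 (J)

noncomputable section

namespace Vale.Agent.P281.H575.KD

open Vale.Agent.P281.H713.KD Vale.Agent.P281.H455.KD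

section pt

variable {h α c A ε ε' r t c₂ : ℝ}

theorem pt_log (hα : 0 ≤ α) (hc : 0 < c) (hc1 : c ≤ 1) (hh : c * α ≤ h) (hA : 1 ≤ A)
    (hL : 1 ≤ Real.log A - Real.log (α + 1)) (h0 : 0 < ε') (h1 : ε' ≤ 1) :
    max 0 (-Real.log (h + ε')) ≤ (1 - Real.log c) * (Real.log A - Real.log (α + ε')) := by
  have e1 : Real.log (α + ε') ≤ Real.log (α + 1) := Real.log_le_log (by linarith) (by linarith)
  have hlA : 0 ≤ Real.log A := Real.log_nonneg hA
  have hlc : Real.log c ≤ 0 := Real.log_nonpos hc.le hc1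
  set L := Real.log A - Real.log (α + ε') with hLdef
  have hL1 : 1 ≤ L := by linarith
  have e2 : Real.log (c * (α + ε')) ≤ Real.log (h + ε') := by
    apply Real.log_le_log (by positivity)
    nlinarith
  rw [Real.log_mul hc.ne' (by linarith)] at e2
  refine max_le (mul_nonneg (by linarith) (by linarith)) ?_
  have e3 : -Real.log c ≤ -Real.log c * L := le_mul_of_one_le_right (by linarith) hL1
  nlinarith

theorem pt_w (ht : 0 ≤ t) (hc : 0 < c₂) (hc1 : c₂ ≤ 1) (hr : c₂ * t ≤ r) (h0 : 0 < ε) :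
    ε / (r + ε) ^ 2 ≤ (c₂ ^ 2)⁻¹ * (ε / (t + ε) ^ 2) := by
  have e1 : c₂ * (t + ε) ≤ r + ε := by nlinarith
  have e2 : 0 < c₂ * (t + ε) := by positivity
  have e3 : (c₂ * (t + ε)) ^ 2 ≤ (r + ε) ^ 2 := pow_le_pow_left₀ e2.le e1 2
  calc ε / (r + ε) ^ 2 ≤ ε / (c₂ * (t + ε)) ^ 2 :=
        div_le_div_of_nonneg_left h0.le (by positivity) e3
    _ = (c₂ ^ 2)⁻¹ * (ε / (t + ε) ^ 2) := by
        rw [mul_pow]
        field_simp

theorem pt_w' (hc : 0 < c₂) (hr : c₂ ≤ r) (h0 : 0 < ε) :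
    ε / (r + ε) ^ 2 ≤ c₂⁻¹ := by
  have h1 : 0 < r + ε := by linarith
  rw [div_le_iff₀ (by positivity), inv_mul_eq_div, le_div_iff₀ hc]
  nlinarith

end pt

variable {n M : ℕ} {X : Type} [TopologicalSpace X] [ChartedSpace (Cm n) X]

/-- a local lower bound for the norms of vectors of holomorphic functions -/
theorem hol_lower {h : X → ℝ} (hh : IsHolNorm (n := n) h) {e : Chart n X} {x : X} (hx : At e x) :
    ∃ (N : ℕ) (a : Fin N → Cm n → ℂ), (∀ b, AnalyticAt ℂ (a b) (e x)) ∧ ∃ c : ℝ, 0 < c ∧ c ≤ 1 ∧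
      ∀ᶠ z in 𝓝 (e x), (∀ b, c * ‖a b z‖ ^ 2 ≤ h (e.symm z)) ∧
        ((∀ b, a b z = 0) → h (e.symm z) = 0) := by
  obtain ⟨N, a, H, h1, h2, h3, h4, h5⟩ := hol_loc hh hx
  obtain ⟨C, hC, h6⟩ := exists_lower (fun b c => (h2 b c).continuousAt) h3
  refine ⟨N, a, h1, (max C 1)⁻¹, by positivity, inv_le_one_of_one_le₀ (le_max_right _ _), ?_⟩
  filter_upwards [h5, h6] with z hz hz'
  have hz2 : h (e.symm z) = hN a H z := hz
  have h7 := hz' fun b => a b z
  rw [show (quad (H z) fun b => a b z).re = h (e.symm z) by rw [hz2]; rfl] at h7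
  refine ⟨fun b => ?_, fun h0 => ?_⟩
  · have h8 : ‖a b z‖ ^ 2 ≤ ∑ b, ‖a b z‖ ^ 2 :=
      Finset.single_le_sum (f := fun b => ‖a b z‖ ^ 2) (fun _ _ => by positivity)
        (Finset.mem_univ b)
    have h9 : 0 ≤ h (e.symm z) := by
      have : 0 ≤ C * h (e.symm z) := le_trans (by positivity) (h8.trans h7)
      exact nonneg_of_mul_nonneg_right this hC
    rw [inv_mul_le_iff₀ (by positivity)]
    calc ‖a b z‖ ^ 2 ≤ C * h (e.symm z) := h8.trans h7
      _ ≤ max C 1 * h (e.symm z) := mul_le_mul_of_nonneg_right (le_max_left _ _) h9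
  · rw [hz2, hN_eq]
    simp [h0]

/-- `h` vanishes on no open subset. -/
theorem hol_freq [PreconnectedSpace X] {h : X → ℝ} (hh : IsHolNorm (n := n) h)
    (hne : ∃ x, 0 < h x) (x : X) : ∃ᶠ y in 𝓝 x, h y ≠ 0 := by
  by_contra hcon
  rw [not_frequently] at hcon
  set T : Set X := {x | ∀ᶠ y in 𝓝 x, h y = 0} with hT
  have hxT : x ∈ T := by
    show ∀ᶠ y in 𝓝 x, h y = 0
    filter_upwards [hcon] with y hy
    exact not_not.1 hy
  have hTo : IsOpen T := by
    rw [isOpen_iff_mem_nhds]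
    intro y hy
    have : ∀ᶠ y' in 𝓝 y, ∀ᶠ y'' in 𝓝 y', h y'' = 0 := eventually_eventually_nhds.2 hy
    exact this
  have hTc : IsClosed T := by
    rw [← closure_subset_iff_isClosed]
    intro y hy
    have hey := at_chartAt (n := n) y
    set e := chartAt (Cm n) y with he
    obtain ⟨N, a, ha, c, hc, hc1, hlow⟩ := hol_lower hh hey
    have h1 : ∀ᶠ z in 𝓝 (e y), ∀ b, AnalyticAt ℂ (a b) z :=
      eventually_all.2 fun b => (ha b).eventually_analyticAt
    have h2 : ∀ᶠ z in 𝓝 (e y), z ∈ e.target := e.open_target.mem_nhds (e.map_source hey.2)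
    obtain ⟨ρ, hρ, h3⟩ := Metric.eventually_nhds_iff_ball.1 (h1.and (h2.and hlow))
    have h4 : e.source ∩ e ⁻¹' ball (e y) ρ ∈ 𝓝 y :=
      (e.isOpen_inter_preimage isOpen_ball).mem_nhds ⟨hey.2, mem_ball_self hρ⟩
    obtain ⟨y', hy', hy'T⟩ := mem_closure_iff_nhds.1 hy _ h4
    have h5 : ∀ᶠ z in 𝓝 (e y'), h (e.symm z) = 0 := by
      have h6 : Tendsto e.symm (𝓝 (e y')) (𝓝 y') := by
        have h7 := e.continuousAt_symm (e.map_source hy'.1)
        rwa [ContinuousAt, e.left_inv hy'.1] at h7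
      exact h6.eventually hy'T
    have h6 : ∀ z ∈ ball (e y) ρ, ∀ b, a b z = 0 := by
      intro z hz b
      have h7 : ∀ᶠ z in 𝓝 (e y'), a b z = 0 := by
        filter_upwards [h5, isOpen_ball.mem_nhds hy'.2] with z hz hz'
        have h8 := (h3 z hz').2.2.1 b
        rw [hz] at h8
        have h9 : ‖a b z‖ ^ 2 ≤ 0 := by
          by_contra h10
          push Not at h10
          have := mul_pos hc h10
          linarith
        have h10 : ‖a b z‖ = 0 := by
          have := sq_nonneg ‖a b z‖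
          exact pow_eq_zero_iff (two_ne_zero) |>.1 (le_antisymm h9 this)
        exact norm_eq_zero.1 h10
      have h8 : AnalyticOnNhd ℂ (a b) (ball (e y) ρ) := fun z hz => (h3 z hz).1 b
      exact h8.eqOn_zero_of_preconnected_of_eventuallyEq_zero
        (convex_ball _ _).isPreconnected hy'.2 h7 hz
    show ∀ᶠ y'' in 𝓝 y, h y'' = 0
    filter_upwards [h4] with y'' hy''
    have h7 := (h3 (e y'') hy''.2).2.2.2 (h6 _ hy''.2)
    rwa [e.left_inv hy''.1] at h7
  have h1 : T = univ := IsClopen.eq_univ ⟨hTc, hTo⟩ ⟨x, hxT⟩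
  obtain ⟨x₁, hx₁⟩ := hne
  have h2 : x₁ ∈ T := by rw [h1]; exact mem_univ _
  have h3 : ∀ᶠ y in 𝓝 x₁, h y = 0 := h2
  exact hx₁.ne' h3.self_of_nhds

/-- the function to be integrated -/
def FL (h r : X → ℝ) (s : {s : ℝ × ℝ // (0 < s.1 ∧ s.1 ≤ 1) ∧ 0 < s.2 ∧ s.2 ≤ 1}) (x : X) : ℝ :=
  max 0 (-Real.log (h x + s.1.2)) * (s.1.1 / (r x + s.1.1) ^ 2)

/-- **The local estimate for `FL`.** -/
theorem log_local [PreconnectedSpace X] {Dv : Fin M → Set X} {r : Fin M → X → ℝ}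
    {R : Fin M → D.FormM n X} (hb : IsBd Dv r R) {h : X → ℝ} (hh : IsHolNorm (n := n) h)
    (hne : ∃ x, 0 < h x) (i : Fin M)
    (hi : ∀ x ∈ Dv i, ¬ ∀ᶠ y in 𝓝 x, y ∈ Dv i → h y = 0) {e : Chart n X} {x : X} (hx : At e x) :
    ∃ V ∈ 𝓝 (e x), ∃ K : ℝ≥0∞, K ≠ ⊤ ∧
      ∀ s, ∫⁻ z in V, ENNReal.ofReal (FL h (r i) s (e.symm z)) ≤ K := by
  classical
  obtain ⟨N, a, ha, c, hc, hc1, hlow⟩ := hol_lower hh hx
  obtain ⟨g, ψ, hg, hψ, hloc, hind, hr⟩ := hb.loc e x hx
  obtain ⟨W, hWo, hxW, -, hWD, -⟩ := hloc i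
  have hsrc : ∀ᶠ y in 𝓝 x, y ∈ e.source := e.open_source.mem_nhds hx.2
  -- transport of the frequency condition
  have htrans : ∀ P : X → Prop, (∃ᶠ y in 𝓝 x, P y) → ∃ᶠ z in 𝓝 (e x), z ∈ e.target ∧
      P (e.symm z) := by
    intro P hP
    rw [← e.map_nhds_eq hx.2, frequently_map]
    refine (hP.and_eventually hsrc).mono fun y hy => ⟨e.map_source hy.2, ?_⟩
    rw [e.left_inv hy.2]
    exact hy.1
  have hnz : ∀ᶠ z in 𝓝 (e x), h (e.symm z) ≠ 0 → ∃ b, a b z ≠ 0 := by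
    filter_upwards [hlow] with z hz h1
    by_contra h2
    push Not at h2
    exact h1 (hz.2 h2)
  by_cases hgi : g i (e x) = 0
  · -- on the divisor
    have hxD : x ∈ Dv i := (hWD x hxW).2 hgi
    have hfr0 : ∃ᶠ y in 𝓝 x, y ∈ Dv i ∧ h y ≠ 0 := by
      have := hi x hxD
      rw [not_eventually] at this
      refine this.mono fun y hy => ?_
      rw [Classical.not_imp] at hy
      exact hy
    have hWz : ∀ᶠ z in 𝓝 (e x), e.symm z ∈ W := by
      have h6 : Tendsto e.symm (𝓝 (e x)) (𝓝 x) := by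
        have h7 := e.continuousAt_symm (e.map_source hx.2)
        rwa [ContinuousAt, e.left_inv hx.2] at h7
      exact h6.eventually (hWo.mem_nhds hxW)
    have hli : LinearIndependent ℂ fun _ : Unit => fderiv ℂ (g i) (e x) := by
      rw [linearIndependent_unique_iff]
      exact hind.ne_zero ⟨i, hgi⟩
    obtain ⟨σ, Φ, -, hΦx, hΦσ, hΦa⟩ := coords (ι := Unit) (g := fun _ => g i)
      (fun _ => hg i) hli
    have hfr : ∃ᶠ z in 𝓝 (e x), (∀ j ∈ ({σ ()} : Finset (Fin n)), Φ z j = 0) ∧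
        ∃ b, a b z ≠ 0 := by
      refine ((htrans _ hfr0).and_eventually (hWz.and hnz)).mono fun z hz => ⟨?_, ?_⟩
      · intro j hj
        rw [Finset.mem_singleton] at hj
        rw [hj, hΦσ]
        have h1 : g i (e (e.symm z)) = 0 := (hWD _ hz.2.1).1 hz.1.2.1
        rwa [e.right_inv hz.1.1] at h1
      · exact hz.2.2 hz.1.2.2
    obtain ⟨Kw, hKw, hKwle⟩ := wt_tube
    obtain ⟨V, hV, b, A, K, hK, hA, hVA, hVK⟩ := core_local hΦx hΦa ha {σ ()} hfr
      (I := {s : ℝ × ℝ // (0 < s.1 ∧ s.1 ≤ 1) ∧ 0 < s.2 ∧ s.2 ≤ 1})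
      (fun s _ y => ENNReal.ofReal (s.1.1 / (y ^ 2 + s.1.1) ^ 2))
      (fun s j => by fun_prop) Kw hKw (fun s j R hR hR1 =>
        (setLIntegral_le_lintegral _ _).trans (hKwle _ s.2.1.1))
    -- the lower bound for r
    set c₂ : ℝ := min 1 (Real.exp (-ψ i (e x)) / 2) with hc₂
    have hc₂p : 0 < c₂ := lt_min one_pos (by positivity)
    have hc₂1 : c₂ ≤ 1 := min_le_left _ _
    have hexp : ∀ᶠ z in 𝓝 (e x), c₂ < Real.exp (-ψ i z) := by
      have h1 : ContinuousAt (fun z => Real.exp (-ψ i z)) (e x) := (hψ i).continuousAt.neg.rexp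
      refine h1.eventually (lt_mem_nhds ?_)
      have : c₂ ≤ Real.exp (-ψ i (e x)) / 2 := min_le_right _ _
      have h2 : 0 < Real.exp (-ψ i (e x)) := Real.exp_pos _
      linarith
    have hrlow : ∀ᶠ z in 𝓝 (e x), c₂ * ‖g i z‖ ^ 2 ≤ r i (e.symm z) := by
      filter_upwards [hexp, hr] with z hz hz'
      rw [(hz' i).1, mul_comm]
      exact mul_le_mul_of_nonneg_left hz.le (by positivity)
    obtain ⟨O, hO, hOo, hxO⟩ := _root_.mem_nhds_iff.1 ((hrlow.and hlow).and hV)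
    refine ⟨O, hOo.mem_nhds hxO, ENNReal.ofReal ((1 - Real.log c) * (c₂ ^ 2)⁻¹) * K,
      ENNReal.mul_ne_top ENNReal.ofReal_ne_top hK, fun s => ?_⟩
    have hlc : Real.log c ≤ 0 := Real.log_nonpos hc.le hc1
    calc ∫⁻ z in O, ENNReal.ofReal (FL h (r i) s (e.symm z))
        ≤ ∫⁻ z in O, ENNReal.ofReal ((1 - Real.log c) * (c₂ ^ 2)⁻¹) *
            (ENNReal.ofReal (Real.log A - Real.log (‖a b z‖ ^ 2 + s.1.2)) *
              ∏ j ∈ ({σ ()} : Finset (Fin n)),
                ENNReal.ofReal (s.1.1 / (‖Φ z j‖ ^ 2 + s.1.1) ^ 2)) := by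
          refine setLIntegral_mono' hOo.measurableSet fun z hz => ?_
          obtain ⟨⟨h1, h2⟩, h3⟩ := hO hz
          have h4 := hVA z h3
          rw [Finset.prod_singleton, hΦσ]
          have e1 := pt_log (by positivity) hc hc1 (h2.1 b) hA h4 s.2.2.1 s.2.2.2
          have e2 := pt_w (by positivity) hc₂p hc₂1 h1 s.2.1.1
          have e3 : 0 ≤ s.1.1 / (r i (e.symm z) + s.1.1) ^ 2 :=
            div_nonneg s.2.1.1.le (by positivity)
          have e4 : 0 ≤ Real.log A - Real.log (‖a b z‖ ^ 2 + s.1.2) := by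
            have := Real.log_le_log (x := ‖a b z‖ ^ 2 + s.1.2) (y := ‖a b z‖ ^ 2 + 1)
              (by have := s.2.2.1; positivity) (by linarith [s.2.2.2])
            linarith
          rw [← ENNReal.ofReal_mul e4, ← ENNReal.ofReal_mul
            (mul_nonneg (by linarith) (by positivity))]
          refine ENNReal.ofReal_le_ofReal ?_
          unfold FL
          calc max 0 (-Real.log (h (e.symm z) + s.1.2)) * (s.1.1 / (r i (e.symm z) + s.1.1) ^ 2)
              ≤ ((1 - Real.log c) * (Real.log A - Real.log (‖a b z‖ ^ 2 + s.1.2))) *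
                ((c₂ ^ 2)⁻¹ * (s.1.1 / (‖g i z‖ ^ 2 + s.1.1) ^ 2)) :=
                mul_le_mul e1 e2 e3 (mul_nonneg (by linarith) e4)
            _ = _ := by ring
      _ = ENNReal.ofReal ((1 - Real.log c) * (c₂ ^ 2)⁻¹) *
            ∫⁻ z in O, (ENNReal.ofReal (Real.log A - Real.log (‖a b z‖ ^ 2 + s.1.2)) *
              ∏ j ∈ ({σ ()} : Finset (Fin n)),
                ENNReal.ofReal (s.1.1 / (‖Φ z j‖ ^ 2 + s.1.1) ^ 2)) :=
          lintegral_const_mul' _ _ ENNReal.ofReal_ne_top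
      _ ≤ _ := by
          gcongr
          exact (lintegral_mono_set fun z hz => (hO hz).2).trans (hVK s s.1.2 s.2.2.1 s.2.2.2)
  · -- off the divisor
    have hfr : ∃ᶠ z in 𝓝 (e x), (∀ j ∈ (∅ : Finset (Fin n)),
        OpenPartialHomeomorph.refl (Fin n → ℂ) z j = 0) ∧ ∃ b, a b z ≠ 0 := by
      refine ((htrans _ (hol_freq hh hne x)).and_eventually hnz).mono fun z hz =>
        ⟨by simp, hz.2 hz.1.2⟩
    obtain ⟨V, hV, b, A, K, hK, hA, hVA, hVK⟩ := core_local
      (Φ := OpenPartialHomeomorph.refl (Fin n → ℂ)) (z₀ := e x) (mem_univ _) analyticAt_id ha ∅ hfr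
      (I := {s : ℝ × ℝ // (0 < s.1 ∧ s.1 ≤ 1) ∧ 0 < s.2 ∧ s.2 ≤ 1})
      (fun s _ y => 0) (fun s j => by fun_prop) 0 ENNReal.zero_ne_top (fun s j R hR hR1 => by simp)
    set c₂ : ℝ := ‖g i (e x)‖ ^ 2 * Real.exp (-ψ i (e x)) / 2 with hc₂
    have hgp : 0 < ‖g i (e x)‖ := norm_pos_iff.2 hgi
    have hc₂p : 0 < c₂ := by positivity
    have hrlow : ∀ᶠ z in 𝓝 (e x), c₂ ≤ r i (e.symm z) := by
      have h1 : ContinuousAt (fun z => ‖g i z‖ ^ 2 * Real.exp (-ψ i z)) (e x) :=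
        ((hg i).continuousAt.norm.pow 2).mul (hψ i).continuousAt.neg.rexp
      have h2 : ∀ᶠ z in 𝓝 (e x), c₂ < ‖g i z‖ ^ 2 * Real.exp (-ψ i z) :=
        h1.eventually (lt_mem_nhds (by rw [hc₂]; exact half_lt_self (by positivity)))
      filter_upwards [h2, hr] with z hz hz'
      rw [(hz' i).1]
      exact hz.le
    obtain ⟨O, hO, hOo, hxO⟩ := _root_.mem_nhds_iff.1 ((hrlow.and hlow).and hV)
    refine ⟨O, hOo.mem_nhds hxO, ENNReal.ofReal ((1 - Real.log c) * c₂⁻¹) * K,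
      ENNReal.mul_ne_top ENNReal.ofReal_ne_top hK, fun s => ?_⟩
    have hlc : Real.log c ≤ 0 := Real.log_nonpos hc.le hc1
    calc ∫⁻ z in O, ENNReal.ofReal (FL h (r i) s (e.symm z))
        ≤ ∫⁻ z in O, ENNReal.ofReal ((1 - Real.log c) * c₂⁻¹) *
            (ENNReal.ofReal (Real.log A - Real.log (‖a b z‖ ^ 2 + s.1.2)) *
              ∏ j ∈ (∅ : Finset (Fin n)), 0) := by
          refine setLIntegral_mono' hOo.measurableSet fun z hz => ?_
          obtain ⟨⟨h1, h2⟩, h3⟩ := hO hz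
          have h4 := hVA z h3
          rw [Finset.prod_empty, mul_one]
          have e1 := pt_log (by positivity) hc hc1 (h2.1 b) hA h4 s.2.2.1 s.2.2.2
          have e2 := pt_w' hc₂p h1 s.2.1.1
          have e3 : 0 ≤ s.1.1 / (r i (e.symm z) + s.1.1) ^ 2 :=
            div_nonneg s.2.1.1.le (by positivity)
          have e4 : 0 ≤ Real.log A - Real.log (‖a b z‖ ^ 2 + s.1.2) := by
            have := Real.log_le_log (x := ‖a b z‖ ^ 2 + s.1.2) (y := ‖a b z‖ ^ 2 + 1)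
              (by have := s.2.2.1; positivity) (by linarith [s.2.2.2])
            linarith
          rw [← ENNReal.ofReal_mul (mul_nonneg (by linarith) (by positivity))]
          refine ENNReal.ofReal_le_ofReal ?_
          unfold FL
          calc max 0 (-Real.log (h (e.symm z) + s.1.2)) * (s.1.1 / (r i (e.symm z) + s.1.1) ^ 2)
              ≤ ((1 - Real.log c) * (Real.log A - Real.log (‖a b z‖ ^ 2 + s.1.2))) * c₂⁻¹ :=
                mul_le_mul e1 e2 e3 (mul_nonneg (by linarith) e4)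
            _ = _ := by ring
      _ = ENNReal.ofReal ((1 - Real.log c) * c₂⁻¹) *
            ∫⁻ z in O, (ENNReal.ofReal (Real.log A - Real.log (‖a b z‖ ^ 2 + s.1.2)) *
              ∏ j ∈ (∅ : Finset (Fin n)), 0) :=
          lintegral_const_mul' _ _ ENNReal.ofReal_ne_top
      _ ≤ _ := by
          gcongr
          exact (lintegral_mono_set fun z hz => (hO hz).2).trans (hVK s s.1.2 s.2.2.1 s.2.2.2)

/-- **Block LOG** is proved. -/
theorem logPart : LogPart := by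
  intro n M X _ _ _ _ _ _ χ hχ Dv r R hb h hhc hh hne i hi
  have hr0 : ∀ x, 0 ≤ r i x := bd_nonneg hb i
  have hrc : Continuous (r i) := INT.SmoothFn.continuous (bd_smooth hb i)
  have hh0 : ∀ x, 0 ≤ h x := hol_nonneg hh
  have hden : ∀ (ε : ℝ), 0 < ε → Continuous fun x => ε / (r i x + ε) ^ 2 := fun ε hε =>
    continuous_const.div ((hrc.add continuous_const).pow 2) fun x => by
      have := hr0 x
      show (r i x + ε) ^ 2 ≠ 0
      positivity
  have hlog : ∀ (ε : ℝ), 0 < ε → Continuous fun x => -Real.log (h x + ε) := fun ε hε =>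
    ((hhc.add continuous_const).log fun x => by
      have := hh0 x
      show h x + ε ≠ 0
      positivity).neg
  have hFc : ∀ s, Continuous (FL h (r i) s) := fun s =>
    (continuous_const.max (hlog _ s.2.2.1)).mul (hden _ s.2.1.1)
  obtain ⟨K, hK⟩ := glob hχ.toIsHermitian (FL h (r i)) hFc
    (fun s x => mul_nonneg (le_max_left _ _) (div_nonneg s.2.1.1.le (by positivity)))
    (fun x => ⟨chartAt (Cm n) x, at_chartAt (n := n) x,
      log_local hb hh hne i hi (at_chartAt (n := n) x)⟩)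
  refine ⟨K, fun ε ε' h1 h2 h3 h4 => le_trans ?_ (hK ⟨(ε, ε'), ⟨h1, h2⟩, h3, h4⟩)⟩
  refine H882.J_mono hχ.toIsHermitian ((hlog _ h3).mul (hden _ h1)) (hFc _) fun x => ?_
  exact mul_le_mul_of_nonneg_right (le_max_right _ _) (div_nonneg h1.le (by positivity))

end Vale.Agent.P281.H575.KD
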