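import Mathlib

/-!
# P281, block KD-LOG: the mean value inequality for `log (‖f‖² + δ)` on polydiscs
-/

open MeasureTheory Metric Set Real Filter Topology
open scoped ENNReal

noncomputable section

namespace Vale.Agent.P281.H575.KD

/-- The circle inequality, `δ = 1`. -/
theorem circle_one {f : ℂ → ℂ} {c : ℂ} {r : ℝ} (hr : 0 < r)
    (hf : AnalyticOnNhd ℂ f (closedBall c r)) :
    Real.log (‖f c‖ ^ 2 + 1) ≤ circleAverage (fun z => Real.log (‖f z‖ ^ 2 + 1)) c r := by
  set n : ℝ := √(‖f c‖ ^ 2 + 1) with hn
  have hn0 : 0 < n := Real.sqrt_pos.2 (by positivity)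
  have hn2 : n ^ 2 = ‖f c‖ ^ 2 + 1 := Real.sq_sqrt (by positivity)
  set g : ℂ → ℂ := fun z => ((starRingEnd ℂ) (f c) * f z + 1) / (n : ℂ) with hg
  have hr' : |r| = r := abs_of_pos hr
  have hga : AnalyticOnNhd ℂ g (closedBall c |r|) := by
    rw [hr']
    intro z hz
    exact ((analyticAt_const.mul (hf z hz)).add analyticAt_const).div_const
  have hgc : ‖g c‖ = n := by
    have h1 : (starRingEnd ℂ) (f c) * f c + 1 = ((‖f c‖ ^ 2 + 1 : ℝ) : ℂ) := by
      rw [mul_comm, Complex.mul_conj, Complex.normSq_eq_norm_sq]
      push_cast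
      ring
    show ‖((starRingEnd ℂ) (f c) * f c + 1) / (n : ℂ)‖ = n
    rw [h1, ← hn2, ← Complex.ofReal_div, Complex.norm_real, Real.norm_of_nonneg (by positivity)]
    field_simp
  have hgle : ∀ z, ‖g z‖ ^ 2 ≤ ‖f z‖ ^ 2 + 1 := by
    intro z
    have h1 : ‖(starRingEnd ℂ) (f c) * f z + 1‖ ≤ ‖f c‖ * ‖f z‖ + 1 := by
      refine (norm_add_le _ _).trans ?_
      rw [norm_mul, norm_one, RCLike.norm_conj]
    have h2 : (‖f c‖ * ‖f z‖ + 1) ^ 2 ≤ (‖f c‖ ^ 2 + 1) * (‖f z‖ ^ 2 + 1) := by
      nlinarith [sq_nonneg (‖f c‖ - ‖f z‖)]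
    show ‖((starRingEnd ℂ) (f c) * f z + 1) / (n : ℂ)‖ ^ 2 ≤ _
    rw [norm_div, div_pow, Complex.norm_real, Real.norm_of_nonneg hn0.le, hn2,
      div_le_iff₀ (by positivity)]
    have h3 := pow_le_pow_left₀ (norm_nonneg _) h1 2
    nlinarith
  have hgne : g c ≠ 0 := by
    rw [← norm_pos_iff, hgc]; exact hn0
  have hJ := hga.circleAverage_log_norm hr.ne' hgne
  have hsum : 0 ≤ ∑ᶠ u, (MeromorphicOn.divisor g (closedBall c |r|) u : ℝ) *
      Real.log (r * ‖c - u‖⁻¹) := by
    refine finsum_nonneg fun u => ?_
    by_cases hu : u ∈ closedBall c |r|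
    · refine mul_nonneg ?_ ?_
      · have := (MeromorphicOn.AnalyticOnNhd.divisor_nonneg hga) u
        exact_mod_cast this
      · by_cases hcu : c = u
        · rw [hcu]; simp
        · apply Real.log_nonneg
          have h1 : 0 < ‖c - u‖ := norm_pos_iff.2 (sub_ne_zero.2 hcu)
          rw [← div_eq_mul_inv, one_le_div h1, ← dist_eq_norm, dist_comm]
          rw [hr'] at hu
          exact hu
    · rw [Function.locallyFinsuppWithin.apply_eq_zero_of_notMem _ hu]
      simp
  have h1 : circleAverage (Real.log ‖g ·‖) c r ≤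
      circleAverage (fun z => (1 / 2 : ℝ) * Real.log (‖f z‖ ^ 2 + 1)) c r := by
    apply circleAverage_mono
    · exact (hga.mono sphere_subset_closedBall).meromorphicOn.circleIntegrable_log_norm
    · apply ContinuousOn.circleIntegrable hr.le
      have hfc : ContinuousOn f (sphere c r) :=
        (hf.mono sphere_subset_closedBall).continuousOn
      exact continuousOn_const.mul (((hfc.norm.pow 2).add continuousOn_const).log fun z _ =>
        (show ‖f z‖ ^ 2 + 1 ≠ 0 by positivity))
    · intro z _
      have h2 := hgle z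
      show Real.log ‖g z‖ ≤ 1 / 2 * Real.log (‖f z‖ ^ 2 + 1)
      by_cases hz : g z = 0
      · rw [hz, norm_zero, Real.log_zero]
        have : 0 ≤ Real.log (‖f z‖ ^ 2 + 1) := Real.log_nonneg (by nlinarith [sq_nonneg ‖f z‖])
        linarith
      · have h3 : 0 < ‖g z‖ := norm_pos_iff.2 hz
        have h4 := Real.log_le_log (by positivity) h2
        rw [Real.log_pow] at h4
        push_cast at h4
        linarith
  have h2 : circleAverage (fun z => (1 / 2 : ℝ) * Real.log (‖f z‖ ^ 2 + 1)) c r
      = (1 / 2 : ℝ) * circleAverage (fun z => Real.log (‖f z‖ ^ 2 + 1)) c r := by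
    exact circleAverage_smul (a := (1 / 2 : ℝ)) (f := fun z => Real.log (‖f z‖ ^ 2 + 1))
      (c := c) (R := r)
  have h3 : Real.log ‖g c‖ = (1 / 2 : ℝ) * Real.log (‖f c‖ ^ 2 + 1) := by
    rw [hgc, hn, Real.log_sqrt (by positivity)]
    ring
  rw [h2] at h1
  rw [hJ, h3] at h1
  linarith

/-- The circle inequality. -/
theorem circle_le {f : ℂ → ℂ} {c : ℂ} {r δ : ℝ} (hr : 0 < r) (hδ : 0 < δ)
    (hf : AnalyticOnNhd ℂ f (closedBall c r)) :
    Real.log (‖f c‖ ^ 2 + δ) ≤ circleAverage (fun z => Real.log (‖f z‖ ^ 2 + δ)) c r := by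
  have hs : 0 < √δ := Real.sqrt_pos.2 hδ
  have hs2 : (√δ) ^ 2 = δ := Real.sq_sqrt hδ.le
  have h1 := circle_one (f := fun z => f z / ((√δ : ℝ) : ℂ)) hr
    fun z hz => (hf z hz).div_const
  have h2 : ∀ z, Real.log (‖f z / ((√δ : ℝ) : ℂ)‖ ^ 2 + 1) =
      Real.log (‖f z‖ ^ 2 + δ) - Real.log δ := by
    intro z
    rw [norm_div, Complex.norm_real, Real.norm_of_nonneg hs.le, div_pow, hs2,
      ← Real.log_div (by positivity) hδ.ne']
    congr 1
    field_simp
  simp only [h2] at h1
  have hi : CircleIntegrable (fun z => Real.log (‖f z‖ ^ 2 + δ)) c r := by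
    apply ContinuousOn.circleIntegrable hr.le
    have hfc : ContinuousOn f (sphere c r) :=
      (hf.mono sphere_subset_closedBall).continuousOn
    exact ((hfc.norm.pow 2).add continuousOn_const).log fun z _ =>
      (show ‖f z‖ ^ 2 + δ ≠ 0 by positivity)
  have h3 : circleAverage (fun z => Real.log (‖f z‖ ^ 2 + δ) - Real.log δ) c r =
      circleAverage (fun z => Real.log (‖f z‖ ^ 2 + δ)) c r - Real.log δ := by
    have h4 := circleAverage_fun_sub hi (circleIntegrable_const (Real.log δ) c r)
    rw [circleAverage_const] at h4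
    exact h4
  rw [h3] at h1
  linarith

/-! ### discs -/

/-- the integral over a circle -/
theorem arc_le {f : ℂ → ℂ} {c : ℂ} {r δ A : ℝ} (hr : 0 < r) (hδ : 0 < δ)
    (hf : AnalyticOnNhd ℂ f (closedBall c r)) (hA : ∀ z ∈ sphere c r, ‖f z‖ ^ 2 + δ ≤ A) :
    ∫⁻ θ in Ioo (-π) π, ENNReal.ofReal (Real.log A - Real.log (‖f (circleMap c r θ)‖ ^ 2 + δ)) ≤
      ENNReal.ofReal (Real.log A - Real.log (‖f c‖ ^ 2 + δ)) * ENNReal.ofReal (2 * π) := by
  set v : ℂ → ℝ := fun z => Real.log A - Real.log (‖f z‖ ^ 2 + δ) with hv
  have hfc : ContinuousOn f (sphere c r) := (hf.mono sphere_subset_closedBall).continuousOn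
  have hlc : ContinuousOn (fun z => Real.log (‖f z‖ ^ 2 + δ)) (sphere c r) :=
    ((hfc.norm.pow 2).add continuousOn_const).log fun z _ =>
      (show ‖f z‖ ^ 2 + δ ≠ 0 by positivity)
  have hvc : ContinuousOn v (sphere c r) := continuousOn_const.sub hlc
  have hvm : Continuous fun θ => v (circleMap c r θ) :=
    hvc.comp_continuous (continuous_circleMap c r) fun θ => circleMap_mem_sphere c hr.le θ
  have hv0 : ∀ θ, 0 ≤ v (circleMap c r θ) := fun θ => by
    have h1 := hA _ (circleMap_mem_sphere c hr.le θ)
    exact sub_nonneg.2 (Real.log_le_log (by positivity) h1)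
  have h1 : ∫⁻ θ in Ioo (-π) π, ENNReal.ofReal (v (circleMap c r θ)) =
      ENNReal.ofReal (∫ θ in Ioo (-π) π, v (circleMap c r θ)) := by
    rw [ofReal_integral_eq_lintegral_ofReal]
    · exact (hvm.integrableOn_Icc (a := -π) (b := π)).mono_set Ioo_subset_Icc_self
    · exact Eventually.of_forall hv0
  have h2 : ∫ θ in Ioo (-π) π, v (circleMap c r θ) = 2 * π * circleAverage v c r := by
    rw [← integral_Ioc_eq_integral_Ioo, ← intervalIntegral.integral_of_le (by linarith [pi_pos]),
      circleAverage, smul_eq_mul, ← mul_assoc, mul_inv_cancel₀ (by positivity), one_mul]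
    have hp : Function.Periodic (fun θ => v (circleMap c r θ)) (2 * π) := fun θ => by
      show v (circleMap c r (θ + 2 * π)) = _
      rw [periodic_circleMap c r θ]
    have := hp.intervalIntegral_add_eq (-π) 0
    rw [zero_add] at this
    rw [← this]
    congr 1
    ring
  have h3 : circleAverage v c r ≤ v c := by
    have h4 := circle_le hr hδ hf
    have hi : CircleIntegrable (fun z => Real.log (‖f z‖ ^ 2 + δ)) c r :=
      hlc.circleIntegrable hr.le
    have h5 := circleAverage_fun_sub (circleIntegrable_const (Real.log A) c r) hi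
    rw [circleAverage_const] at h5
    rw [hv, h5]
    linarith
  show ∫⁻ θ in Ioo (-π) π, ENNReal.ofReal (v (circleMap c r θ)) ≤
    ENNReal.ofReal (v c) * ENNReal.ofReal (2 * π)
  rw [h1, h2, mul_comm (ENNReal.ofReal (v c)), ← ENNReal.ofReal_mul (by positivity)]
  exact ENNReal.ofReal_le_ofReal (mul_le_mul_of_nonneg_left h3 (by positivity))

/-- polar coordinates -/
theorem polar (c : ℂ) (G : ℂ → ℝ≥0∞) (hG : Measurable G) :
    ∫⁻ y, G y = ∫⁻ r in Ioi (0 : ℝ), ENNReal.ofReal r *
      ∫⁻ θ in Ioo (-π) π, G (circleMap c r θ) := by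
  have h1 : ∫⁻ y, G y = ∫⁻ y, G (c + y) := (lintegral_add_left_eq_self G c).symm
  rw [h1, ← Complex.lintegral_comp_polarCoord_symm, polarCoord_target, Measure.volume_eq_prod,
    setLIntegral_prod]
  · refine setLIntegral_congr_fun measurableSet_Ioi fun r _ => ?_
    show ∫⁻ θ in Ioo (-π) π, ENNReal.ofReal r • G (c + Complex.polarCoord.symm (r, θ)) = _
    simp only [smul_eq_mul]
    rw [lintegral_const_mul']
    · congr 1
      refine setLIntegral_congr_fun measurableSet_Ioo fun θ _ => ?_
      show G (c + Complex.polarCoord.symm (r, θ)) = G (circleMap c r θ)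
      rw [Complex.polarCoord_symm_apply, circleMap, Complex.exp_mul_I]
      push_cast
      rfl
    · exact ENNReal.ofReal_ne_top
  · apply Measurable.aemeasurable
    refine Measurable.smul (ENNReal.measurable_ofReal.comp measurable_fst) (hG.comp ?_)
    have : Continuous fun p : ℝ × ℝ => Complex.polarCoord.symm p := by
      simp only [Complex.polarCoord_symm_apply]
      fun_prop
    exact (continuous_const.add this).measurable

/-- **The disc inequality.** -/
theorem disc_le {f : ℂ → ℂ} {c : ℂ} {R δ A : ℝ} (hδ : 0 < δ) (hf : AnalyticOnNhd ℂ f (ball c R))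
    (hA : ∀ z ∈ ball c R, ‖f z‖ ^ 2 + δ ≤ A) (w : ℝ → ℝ≥0∞) (hw : Measurable w) :
    ∫⁻ y, (ball c R).indicator (fun y =>
        ENNReal.ofReal (Real.log A - Real.log (‖f y‖ ^ 2 + δ)) * w ‖y - c‖) y ≤
      ENNReal.ofReal (Real.log A - Real.log (‖f c‖ ^ 2 + δ)) *
        ∫⁻ y, (ball c R).indicator (fun y => w ‖y - c‖) y := by
  have hfc : ContinuousOn f (ball c R) := hf.continuousOn
  have hm1 : Measurable ((ball c R).indicator (fun y =>
      ENNReal.ofReal (Real.log A - Real.log (‖f y‖ ^ 2 + δ)) * w ‖y - c‖)) := by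
    have h1 : Measurable ((ball c R).indicator (fun y =>
        ENNReal.ofReal (Real.log A - Real.log (‖f y‖ ^ 2 + δ)))) := by
      have h2 : ContinuousOn (fun y => ENNReal.ofReal (Real.log A - Real.log (‖f y‖ ^ 2 + δ)))
          (ball c R) := by
        refine ENNReal.continuous_ofReal.comp_continuousOn (continuousOn_const.sub ?_)
        exact ((hfc.norm.pow 2).add continuousOn_const).log fun z _ =>
          (show ‖f z‖ ^ 2 + δ ≠ 0 by positivity)
      classical
      rw [← piecewise_eq_indicator]
      exact h2.measurable_piecewise continuousOn_const measurableSet_ball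
    have h3 : (ball c R).indicator (fun y =>
        ENNReal.ofReal (Real.log A - Real.log (‖f y‖ ^ 2 + δ)) * w ‖y - c‖) =
        fun y => (ball c R).indicator (fun y =>
          ENNReal.ofReal (Real.log A - Real.log (‖f y‖ ^ 2 + δ))) y * w ‖y - c‖ := by
      funext y
      by_cases hy : y ∈ ball c R
      · rw [indicator_of_mem hy, indicator_of_mem hy]
      · rw [indicator_of_notMem hy, indicator_of_notMem hy, zero_mul]
    rw [h3]
    exact h1.mul (hw.comp (by fun_prop))
  have hm2 : Measurable ((ball c R).indicator (fun y => w ‖y - c‖)) :=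
    (hw.comp (by fun_prop : Measurable fun y : ℂ => ‖y - c‖)).indicator measurableSet_ball
  rw [polar c _ hm1, polar c _ hm2, ← lintegral_const_mul']
  swap
  · exact ENNReal.ofReal_ne_top
  refine setLIntegral_mono' measurableSet_Ioi fun r hr => ?_
  have hr0 : 0 < r := hr
  have hn : ∀ θ, ‖circleMap c r θ - c‖ = r := fun θ => by
    rw [← dist_eq_norm, ← mem_sphere]
    exact circleMap_mem_sphere c hr0.le θ
  by_cases hrR : r < R
  · have hmem : ∀ θ, circleMap c r θ ∈ ball c R := fun θ => by
      rw [mem_ball, dist_eq_norm, hn]; exact hrR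
    simp only [indicator_of_mem (hmem _), hn]
    rw [lintegral_mul_const _ ?_]
    · have h1 := arc_le (A := A) hr0 hδ (hf.mono (closedBall_subset_ball hrR))
        fun z hz => hA z (sphere_subset_closedBall.trans (closedBall_subset_ball hrR) hz)
      have h2 : ∫⁻ _θ in Ioo (-π) π, w r = ENNReal.ofReal (2 * π) * w r := by
        rw [lintegral_const, Measure.restrict_apply MeasurableSet.univ, univ_inter,
          Real.volume_Ioo, mul_comm]
        congr 2
        ring
      rw [h2]
      calc ENNReal.ofReal r * ((∫⁻ θ in Ioo (-π) π, ENNReal.ofReal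
            (Real.log A - Real.log (‖f (circleMap c r θ)‖ ^ 2 + δ))) * w r)
          ≤ ENNReal.ofReal r * ((ENNReal.ofReal (Real.log A - Real.log (‖f c‖ ^ 2 + δ)) *
            ENNReal.ofReal (2 * π)) * w r) := by gcongr
        _ = _ := by ring
    · apply Measurable.ennreal_ofReal
      refine Measurable.const_sub ?_ _
      refine Real.measurable_log.comp (Measurable.add_const ?_ _)
      have h5 : Continuous fun θ => f (circleMap c r θ) :=
        hfc.comp_continuous (continuous_circleMap c r) hmem
      exact (h5.norm.pow 2).measurable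
  · have hmem : ∀ θ, circleMap c r θ ∉ ball c R := fun θ => by
      rw [mem_ball, dist_eq_norm, hn]; exact hrR
    simp only [indicator_of_notMem (hmem _)]
    simp

/-! ### polydiscs -/

/-- **The polydisc inequality** for functions with the mean value property in each variable. -/
theorem poly_le {n : ℕ} (p : Fin n → ℂ) (W : Fin n → ℂ → ℝ≥0∞) (hW : ∀ i, Measurable (W i))
    (u : (Fin n → ℂ) → ℝ≥0∞) (hu : Measurable u)
    (h1 : ∀ (x : Fin n → ℂ) (j : Fin n), ∫⁻ y, u (Function.update x j y) * W j y ≤
      u (Function.update x j (p j)) * ∫⁻ y, W j y) :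
    ∫⁻ x, u x * ∏ j, W j (x j) ≤ u p * ∏ j, ∫⁻ y, W j y := by
  classical
  set F : (Fin n → ℂ) → ℝ≥0∞ := fun x => u x * ∏ j, W j (x j) with hF
  have hFm : Measurable F :=
    hu.mul (Finset.measurable_prod _ fun j _ => (hW j).comp (measurable_pi_apply j))
  have key : ∀ (s : Finset (Fin n)) (x : Fin n → ℂ),
      (∫⋯∫⁻_s, F ∂(fun _ => (volume : Measure ℂ))) x ≤
        u (fun i => if i ∈ s then p i else x i) * ((∏ i ∈ s, ∫⁻ y, W i y) *
          ∏ i ∈ sᶜ, W i (x i)) := by
    intro s
    induction s using Finset.induction_on with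
    | empty =>
      intro x
      rw [lmarginal_empty]
      simp [hF]
    | insert j s hj ih =>
      intro x
      rw [lmarginal_insert _ hFm hj]
      have hcompl : ∀ y : ℂ, ∏ i ∈ sᶜ, W i (Function.update x j y i) =
          W j y * ∏ i ∈ (insert j s)ᶜ, W i (x i) := by
        intro y
        have hjc : j ∈ sᶜ := Finset.mem_compl.2 hj
        rw [← Finset.mul_prod_erase _ _ hjc, Function.update_self]
        congr 1
        have he : sᶜ.erase j = (insert j s)ᶜ := by
          ext i
          simp only [Finset.mem_erase, Finset.mem_compl, Finset.mem_insert, not_or]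
        rw [he]
        refine Finset.prod_congr rfl fun i hi => ?_
        rw [Function.update_of_ne]
        rintro rfl
        exact (Finset.mem_compl.1 hi) (Finset.mem_insert_self _ _)
      have hup : ∀ y : ℂ, (fun i => if i ∈ s then p i else Function.update x j y i) =
          Function.update (fun i => if i ∈ s then p i else x i) j y := by
        intro y
        funext i
        by_cases hi : i = j
        · subst hi
          rw [if_neg hj, Function.update_self, Function.update_self]
        · rw [Function.update_of_ne hi, Function.update_of_ne hi]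
      have hup2 : Function.update (fun i => if i ∈ s then p i else x i) j (p j) =
          (fun i => if i ∈ insert j s then p i else x i) := by
        funext i
        by_cases hi : i = j
        · subst hi
          rw [Function.update_self, if_pos (Finset.mem_insert_self _ _)]
        · rw [Function.update_of_ne hi]
          simp only [Finset.mem_insert, hi, false_or]
      calc ∫⁻ y, (∫⋯∫⁻_s, F ∂(fun _ => (volume : Measure ℂ))) (Function.update x j y)
          ≤ ∫⁻ y, ((∏ i ∈ s, ∫⁻ y, W i y) * ∏ i ∈ (insert j s)ᶜ, W i (x i)) *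
            (u (Function.update (fun i => if i ∈ s then p i else x i) j y) * W j y) := by
            refine lintegral_mono fun y => (ih _).trans (le_of_eq ?_)
            rw [hcompl, hup]
            ring
        _ ≤ ((∏ i ∈ s, ∫⁻ y, W i y) * ∏ i ∈ (insert j s)ᶜ, W i (x i)) *
            (u (Function.update (fun i => if i ∈ s then p i else x i) j (p j)) *
              ∫⁻ y, W j y) := by
            rw [lintegral_const_mul]
            · gcongr
              exact h1 _ _
            · exact (hu.comp (measurable_update _)).mul (hW j)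
        _ = _ := by
            rw [hup2, Finset.prod_insert hj]
            ring
  have h2 := key Finset.univ p
  rw [lmarginal_univ] at h2
  have h3 : (volume : Measure (Fin n → ℂ)) = Measure.pi fun _ => volume := volume_pi
  rw [h3]
  refine h2.trans (le_of_eq ?_)
  simp

/-- The polydisc inequality for `A - log (|f|² + δ)`; the weights are radial, centred at `p`. -/
theorem polydisc_le {n : ℕ} {f : (Fin n → ℂ) → ℂ} {p : Fin n → ℂ} {R δ A : ℝ} (hδ : 0 < δ)
    (hR : 0 < R) (hf : DifferentiableOn ℂ f (ball p R)) (hA : ∀ z ∈ ball p R, ‖f z‖ ^ 2 + δ ≤ A)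
    (w : Fin n → ℝ → ℝ≥0∞) (hw : ∀ i, Measurable (w i)) :
    ∫⁻ z in ball p R, ENNReal.ofReal (Real.log A - Real.log (‖f z‖ ^ 2 + δ)) *
        ∏ j, w j ‖z j - p j‖ ≤
      ENNReal.ofReal (Real.log A - Real.log (‖f p‖ ^ 2 + δ)) *
        ∏ j, ∫⁻ y in ball (p j) R, w j ‖y - p j‖ := by
  classical
  set v : (Fin n → ℂ) → ℝ≥0∞ :=
    fun z => ENNReal.ofReal (Real.log A - Real.log (‖f z‖ ^ 2 + δ)) with hv
  set u : (Fin n → ℂ) → ℝ≥0∞ := (ball p R).indicator v with hu
  set W : Fin n → ℂ → ℝ≥0∞ := fun j => (ball (p j) R).indicator fun y => w j ‖y - p j‖ with hWdef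
  have hWm : ∀ j, Measurable (W j) := fun j =>
    ((hw j).comp (by fun_prop : Measurable fun y : ℂ => ‖y - p j‖)).indicator measurableSet_ball
  have hfc : ContinuousOn f (ball p R) := hf.continuousOn
  have hum : Measurable u := by
    have h2 : ContinuousOn v (ball p R) := by
      refine ENNReal.continuous_ofReal.comp_continuousOn (continuousOn_const.sub ?_)
      exact ((hfc.norm.pow 2).add continuousOn_const).log fun z _ =>
        (show ‖f z‖ ^ 2 + δ ≠ 0 by positivity)
    rw [hu, ← piecewise_eq_indicator]
    exact h2.measurable_piecewise continuousOn_const measurableSet_ball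
  have hmem : ∀ z : Fin n → ℂ, z ∈ ball p R ↔ ∀ j, z j ∈ ball (p j) R := by
    intro z
    rw [ball_pi _ hR, Set.mem_univ_pi]
  have h1 := poly_le p W hWm u hum fun x j => by
    by_cases hx : ∀ i, i ≠ j → x i ∈ ball (p i) R
    · -- a disc in the `j`-th direction
      have hup : ∀ y : ℂ, Function.update x j y ∈ ball p R ↔ y ∈ ball (p j) R := by
        intro y
        rw [hmem]
        constructor
        · intro h
          have := h j
          rwa [Function.update_self] at this
        · intro h i
          by_cases hi : i = j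
          · subst hi
            rwa [Function.update_self]
          · rw [Function.update_of_ne hi]
            exact hx i hi
      have hd : AnalyticOnNhd ℂ (fun y => f (Function.update x j y)) (ball (p j) R) := by
        apply DifferentiableOn.analyticOnNhd _ isOpen_ball
        refine hf.comp ?_ fun y hy => (hup y).2 hy
        intro y _
        exact (hasFDerivAt_update x y).differentiableAt.differentiableWithinAt
      have h2 := disc_le (A := A) hδ hd (fun y hy => hA _ ((hup y).2 hy)) (w j) (hw j)
      have h3 : ∀ y, u (Function.update x j y) * W j y = (ball (p j) R).indicator (fun y =>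
          ENNReal.ofReal (Real.log A - Real.log (‖f (Function.update x j y)‖ ^ 2 + δ)) *
            w j ‖y - p j‖) y := by
        intro y
        by_cases hy : y ∈ ball (p j) R
        · rw [hu, hWdef, indicator_of_mem ((hup y).2 hy), indicator_of_mem hy]
          simp only [indicator_of_mem hy]
          rfl
        · rw [hWdef]
          simp only [indicator_of_notMem hy, mul_zero]
      simp only [h3]
      refine h2.trans (le_of_eq ?_)
      rw [hu, indicator_of_mem ((hup _).2 (mem_ball_self hR))]
    · push Not at hx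
      obtain ⟨i, hij, hi⟩ := hx
      have h3 : ∀ y, u (Function.update x j y) = 0 := by
        intro y
        rw [hu, indicator_of_notMem]
        rw [hmem]
        intro h
        have := h i
        rw [Function.update_of_ne hij] at this
        exact hi this
      simp only [h3, zero_mul, lintegral_zero, le_refl]
  have h4 : ∫⁻ z in ball p R, v z * ∏ j, w j ‖z j - p j‖ = ∫⁻ z, u z * ∏ j, W j (z j) := by
    rw [← lintegral_indicator measurableSet_ball]
    refine lintegral_congr fun z => ?_
    by_cases hz : z ∈ ball p R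
    · rw [indicator_of_mem hz, hu, indicator_of_mem hz]
      congr 1
      refine Finset.prod_congr rfl fun j _ => ?_
      rw [hWdef]
      simp only [indicator_of_mem ((hmem z).1 hz j)]
    · rw [indicator_of_notMem hz, hu, indicator_of_notMem hz, zero_mul]
  show ∫⁻ z in ball p R, v z * ∏ j, w j ‖z j - p j‖ ≤ _
  rw [h4]
  refine h1.trans (le_of_eq ?_)
  rw [hu, indicator_of_mem (mem_ball_self hR)]
  congr 1
  refine Finset.prod_congr rfl fun j _ => ?_
  rw [hWdef, lintegral_indicator measurableSet_ball]

end Vale.Agent.P281.H575.KD
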